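import Vale.Agent.P110K.Defs
import Vale.Agent.P110K.Seq

open Filter Vale.Agent.P110K

namespace Vale.Agent.Results.P110.KroneckerProducts

theorem result :
    -- `kron b a` gives the coefficients of `A(z) B(z^m)`
    (∀ (k m : ℕ) (b : Fin k → ℝ) (a : Fin m → ℝ), (IsLittlewood b → IsLittlewood a →
      IsLittlewood (kron b a)) ∧ ∀ z : ℂ, ev (kron b a) z = ev a z * ev b (z ^ m)) ∧
    -- quantitative statement for one product
    (∀ (k m : ℕ) (b : Fin k → ℝ) (a : Fin m → ℝ) (c : ℝ), 2 ≤ k → 2 ≤ m → IsLittlewood b →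
      IsLittlewood a → 0 ≤ c → c < 1 → Flat c (kron b a) →
      Flat c b ∧ Flat (2 * c / (1 - c)) a ∧ 2 / (3 * (k : ℝ)) ≤ c ∧ 1 / (4 * (m : ℝ)) ≤ c) ∧
    -- sequences of products
    (∀ (k m : ℕ → ℕ) (b : (n : ℕ) → Fin (k n) → ℝ) (a : (n : ℕ) → Fin (m n) → ℝ),
      (∀ n, 2 ≤ k n) → (∀ n, 2 ≤ m n) → (∀ n, IsLittlewood (b n)) → (∀ n, IsLittlewood (a n)) →
      (Ultraflat (fun n => k n * m n) (fun n => kron (b n) (a n)) ↔
        Ultraflat k b ∧ Ultraflat m a)) ∧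
    -- ultraflat sequences exist iff they exist among products
    ((∃ (N : ℕ → ℕ) (P : (n : ℕ) → Fin (N n) → ℝ), Ultraflat N P) ↔
      ∃ (k m : ℕ → ℕ) (b : (n : ℕ) → Fin (k n) → ℝ) (a : (n : ℕ) → Fin (m n) → ℝ),
        (∀ n, 2 ≤ k n) ∧ (∀ n, 2 ≤ m n) ∧ (∀ n, IsLittlewood (b n)) ∧ (∀ n, IsLittlewood (a n)) ∧
        Ultraflat (fun n => k n * m n) (fun n => kron (b n) (a n))) := by
  refine ⟨fun k m b a => ⟨kron_littlewood, ev_kron b a⟩, ?_, seq_iff, ?_, ?_⟩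
  · intro k m b a c hk hm hb ha hc0 hc1 h
    exact ⟨flat_outer (by omega) ha hc0 hc1.le h, flat_inner (by omega) (by omega) ha hc0 hc1 h,
      lower_outer hk (by omega) hb ha hc0 hc1 h, lower_inner (by omega) hm ha hc0 hc1 h⟩
  · rintro ⟨N, P, hP, hN, hf⟩
    obtain ⟨n0, hn0⟩ := eventually_atTop.1 (hN.eventually_ge_atTop 2)
    have hu : Ultraflat (fun n => N (n + n0)) (fun n => P (n + n0)) :=
      ⟨fun n => hP _, hN.comp (tendsto_add_atTop_nat n0), fun c hc =>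
        (tendsto_add_atTop_nat n0).eventually (hf c hc)⟩
    refine ⟨fun n => N (n + n0), fun n => N (n + n0), fun n => P (n + n0), fun n => P (n + n0),
      fun n => hn0 _ (by omega), fun n => hn0 _ (by omega), fun n => hP _, fun n => hP _, ?_⟩
    exact (seq_iff _ _ _ _ (fun n => hn0 _ (by omega)) (fun n => hn0 _ (by omega))
      (fun n => hP _) (fun n => hP _)).2 ⟨hu, hu⟩
  · rintro ⟨k, m, b, a, _, _, _, _, h⟩
    exact ⟨_, _, h⟩

end Vale.Agent.Results.P110.KroneckerProducts
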