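import Vale.Agent.P110R.Red

namespace Vale.Agent.Results.P110.KroneckerReduction

open Vale.Agent.P110

/-- (1) If `a`, `b` are sign sequences of lengths `m, k ≥ 2` then their Kronecker product is the
coefficient sequence of the Littlewood polynomial `A(z) B(z ^ m)` of length `m k`, and if this
product is `c`-flat then `B` is `c`-flat, `A` is flat with the constants `(1 - c) / (1 + c)` and
`(1 + c) / (1 - c)`, and `c ≥ 1 / (2 m)` and `c ≥ 1 / k`.
(2) A sequence of such products is ultraflat if and only if both sequences of factors are.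
(3) There are `c`-flat Littlewood polynomials of arbitrarily large length for every `c > 0` if and
only if for every `c > 0` there is one of length at least `2` that is not such a product. -/
theorem result :
    (∀ (m k : ℕ) (a b : ℕ → ℝ), 2 ≤ m → 2 ≤ k → Signs a m → Signs b k →
      Signs (kron m a b) (m * k) ∧
      (∀ z : ℂ, poly (kron m a b) (m * k) z = poly a m z * poly b k (z ^ m)) ∧
      ∀ c : ℝ, 0 ≤ c → c < 1 → Flat (1 - c) (1 + c) (kron m a b) (m * k) →
        Flat (1 - c) (1 + c) b k ∧ Flat ((1 - c) / (1 + c)) ((1 + c) / (1 - c)) a m ∧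
        1 / (2 * (m : ℝ)) ≤ c ∧ 1 / (k : ℝ) ≤ c) ∧
    (∀ (a b : ℕ → ℕ → ℝ) (m k : ℕ → ℕ), (∀ n, 2 ≤ m n) → (∀ n, 2 ≤ k n) →
      (∀ n, Signs (a n) (m n)) → (∀ n, Signs (b n) (k n)) →
      (Ultraflat (fun n => kron (m n) (a n) (b n)) (fun n => m n * k n) ↔
        Ultraflat a m ∧ Ultraflat b k)) ∧
    ((∀ c : ℝ, 0 < c → ∀ L : ℕ, ∃ N ≥ L, ∃ ε : ℕ → ℝ, Signs ε N ∧ Flat (1 - c) (1 + c) ε N) ↔
      (∀ c : ℝ, 0 < c → ∃ N ≥ 2, ∃ ε : ℕ → ℝ, Signs ε N ∧ Indecomposable ε N ∧
        Flat (1 - c) (1 + c) ε N)) := by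
  refine ⟨fun m k a b hm hk ha hb => ⟨signs_kron m k (by omega) a b ha hb,
    fun z => poly_kron m k (by omega) a b z,
    fun c hc hc1 h => product hm hk a b ha hb hc hc1 h⟩,
    fun a b m k hm hk ha hb => ultraflat_iff a b m k hm hk ha hb, indec_iff⟩

end Vale.Agent.Results.P110.KroneckerReduction
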