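import Vale.Agent.P110N.Main

/-!
# P110: Littlewood polynomials near products `Q(z) R(z^m)` are not ultraflat
-/

namespace Vale.Agent.Results.P110.NearProducts

open Filter
open Vale.Agent.P110N

/-- Let `P` be a Littlewood polynomial of length `N = m r` whose coefficients differ at `d` places
from those of a product `Q(z) R(z^m)` of Littlewood polynomials `Q` of length `m` and `R` of
length `r`.  (1) If `m ≥ 2` then `max |P|² ≥ (1 + 1/(m+1)) N - 4 d` on the unit circle.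
(2) If `r ≥ 2` then `max |P|² ≥ (1 + 1/r) N - 4 d`.  (3) In an ultraflat sequence, for every `K`,
all but finitely many members have distance more than `N/(8(K+1))` from all products in which
one of the two factors has length between `2` and `K`. -/
theorem result :
    (∀ (m r : ℕ), 2 ≤ m → 1 ≤ r → ∀ ε b c : ℕ → ℝ, IsSign (m * r) ε → IsSign m b → IsSign r c →
      ∃ z : ℂ, ‖z‖ = 1 ∧
        (1 + 1 / ((m : ℝ) + 1)) * (m * r : ℕ) - 4 * (dist (m * r) m ε b c : ℝ) ≤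
          ‖lit (m * r) ε z‖ ^ 2) ∧
    (∀ (m r : ℕ), 1 ≤ m → 2 ≤ r → ∀ ε b c : ℕ → ℝ, IsSign (m * r) ε → IsSign m b → IsSign r c →
      ∃ z : ℂ, ‖z‖ = 1 ∧
        (1 + 1 / (r : ℝ)) * (m * r : ℕ) - 4 * (dist (m * r) m ε b c : ℝ) ≤
          ‖lit (m * r) ε z‖ ^ 2) ∧
    (∀ (K : ℕ) (N : ℕ → ℕ) (ε : ℕ → ℕ → ℝ), Ultraflat N ε →
      ∀ᶠ n in atTop, ∀ (m r : ℕ) (b c : ℕ → ℝ), N n = m * r →
        (2 ≤ m ∧ m ≤ K ∧ 1 ≤ r) ∨ (2 ≤ r ∧ r ≤ K ∧ 1 ≤ m) → IsSign m b → IsSign r c →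
        N n < 8 * (K + 1) * dist (N n) m (ε n) b c) :=
  ⟨main1, main2, not_ultraflat⟩

end Vale.Agent.Results.P110.NearProducts
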