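import Mathlib
import Vale.Agent.P110.Main

/-!
# P110 (partial): ultraflatness passes to factors

Let `Q`, `R` be Littlewood polynomials of lengths `m, r ≥ 2` and `P(z) = Q(z) R(z ^ m)`, a
Littlewood polynomial of length `m r`. If `P` is flat up to `c < 1` then so is `R`, `Q` is flat up
to `2 c / (1 - c)`, and both lengths are bounded below in terms of `c`. In an ultraflat sequence of
such products both factor sequences are ultraflat.
-/

namespace Vale.Agent.Results.P110.ProductsOfLittlewoodPolynomials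

open Vale.Agent.P110

theorem result :
    (∀ (m r : ℕ), 2 ≤ m → 2 ≤ r → ∀ q s a : ℕ → ℝ, Littlewood m q → Littlewood r s →
      (∀ i < m, ∀ j < r, a (i + m * j) = q i * s j) →
      (∀ z : ℂ, L (m * r) a z = L m q z * L r s (z ^ m)) ∧
      ∀ c : ℝ, 0 ≤ c → c < 1 → Flat (m * r) a c →
        Flat r s c ∧ Flat m q (2 * c / (1 - c)) ∧ 1 ≤ 3 * c * r ∧
          1 ≤ 4 * c / (1 - c) ^ 2 * m) ∧
    (∀ (m r : ℕ → ℕ), (∀ n, 2 ≤ m n) → (∀ n, 2 ≤ r n) → ∀ q s a : ℕ → ℕ → ℝ,
      (∀ n, Littlewood (m n) (q n)) → (∀ n, Littlewood (r n) (s n)) →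
      (∀ n, ∀ i < m n, ∀ j < r n, a n (i + m n * j) = q n i * s n j) →
      Ultraflat (fun n => m n * r n) a → Ultraflat m q ∧ Ultraflat r s) :=
  ⟨fun m r hm hr q s a hq hs h => ⟨L_mul m r (by omega) q s a h,
    fun c hc0 hc1 hflat => product m r hm hr q s a hq hs h c hc0 hc1 hflat⟩,
    fun m r hm hr q s a hq hs h hu => ultraflat_factors m r hm hr q s a hq hs h hu⟩

end Vale.Agent.Results.P110.ProductsOfLittlewoodPolynomials
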